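import Vale.Agent.P113.H99.Per

/-!
# P113, part 2: the two families of bumps as functions
-/

namespace Vale.Agent.P113.H99

open MeasureTheory Set Filter Topology

theorem iteratedDeriv_rho_contDiff {n : ℕ∞} (j : ℕ) : ContDiff ℝ n (iteratedDeriv j rho) := by
  have h : ContDiff ℝ ((⊤ : ℕ∞) : WithTop ℕ∞) (iteratedDeriv j rho) := by
    induction j with
    | zero => rw [iteratedDeriv_zero]; exact rho_contDiff
    | succ j ih => rw [iteratedDeriv_succ]; exact (contDiff_infty_iff_deriv.1 ih).2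
  exact h.of_le (by exact_mod_cast le_top)

theorem hasDerivAt_iteratedDeriv_rho (j : ℕ) (s : ℝ) :
    HasDerivAt (iteratedDeriv j rho) (iteratedDeriv (j + 1) rho s) s := by
  rw [iteratedDeriv_succ]
  exact ((iteratedDeriv_rho_contDiff (n := 1) j).differentiable (by norm_num) s).hasDerivAt

theorem iteratedDeriv_rho_zero (j : ℕ) {s : ℝ} (h : 1 ≤ |s|) : iteratedDeriv j rho s = 0 := by
  have h1 : ∀ s : ℝ, 1 < |s| → iteratedDeriv j rho s = 0 := by
    induction j with
    | zero => intro s hs; rw [iteratedDeriv_zero]; exact rho_zero hs.le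
    | succ j ih =>
      intro s hs
      have h1 : iteratedDeriv j rho =ᶠ[𝓝 s] fun _ => 0 := by
        have : ∀ᶠ z : ℝ in 𝓝 s, (1 : ℝ) < |z| :=
          (continuous_abs.tendsto s).eventually (lt_mem_nhds hs)
        filter_upwards [this] with z hz
        exact ih z hz
      exact (hasDerivAt_iteratedDeriv_rho j s).unique
        ((hasDerivAt_const s (0 : ℝ)).congr_of_eventuallyEq h1)
  rcases h.lt_or_eq with h | h
  · exact h1 s h
  · -- boundary by continuity
    have hc : Continuous (iteratedDeriv j rho) := (iteratedDeriv_rho_contDiff (n := 0) j).continuous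
    have hs0 : s ≠ 0 := by
      intro h0; rw [h0, abs_zero] at h; norm_num at h
    have ht : Tendsto (fun n : ℕ => s * (1 + 1 / ((n : ℝ) + 1))) atTop (𝓝 (s * (1 + 0))) :=
      (tendsto_const_nhds.add tendsto_one_div_add_atTop_nhds_zero_nat).const_mul s
    rw [add_zero, mul_one] at ht
    have h2 := (hc.tendsto s).comp ht
    have h3 : (iteratedDeriv j rho ∘ fun n : ℕ => s * (1 + 1 / ((n : ℝ) + 1))) = fun _ => 0 := by
      ext n
      apply h1
      rw [abs_mul, ← h, one_mul]
      have : 0 < 1 / ((n : ℝ) + 1) := by positivity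
      rw [abs_of_pos (by linarith)]
      linarith
    rw [h3] at h2
    exact tendsto_nhds_unique h2 tendsto_const_nhds

/-- `s^k ρ^(j)(as-b)` -/
noncomputable def bR (k j : ℕ) (a b s : ℝ) : ℝ := s ^ k * iteratedDeriv j rho (a * s - b)

/-- `s^k π_ℓ(as-b)` -/
noncomputable def bP (k : ℕ) (l a b s : ℝ) : ℝ := s ^ k * piFun l (a * s - b)

theorem bR_contDiff {n : ℕ∞} (k j : ℕ) (a b : ℝ) : ContDiff ℝ n (bR k j a b) :=
  (contDiff_id.pow k).mul ((iteratedDeriv_rho_contDiff j).comp
    ((contDiff_const.mul contDiff_id).sub contDiff_const))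

theorem bP_contDiff {n : ℕ∞} (k : ℕ) (l a b : ℝ) : ContDiff ℝ n (bP k l a b) :=
  (contDiff_id.pow k).mul ((piFun_contDiff l).comp
    ((contDiff_const.mul contDiff_id).sub contDiff_const))

theorem hasDerivAt_aff (a b s : ℝ) : HasDerivAt (fun s => a * s - b) a s := by
  simpa using ((hasDerivAt_id s).const_mul a).sub_const b

theorem hasDerivAt_bR (k j : ℕ) (a b s : ℝ) :
    HasDerivAt (bR k j a b) (k * bR (k - 1) j a b s + a * bR k (j + 1) a b s) s := by
  have h1 := (hasDerivAt_pow k s).mul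
    ((hasDerivAt_iteratedDeriv_rho j (a * s - b)).comp s (hasDerivAt_aff a b s))
  refine h1.congr_deriv ?_
  simp only [bR, Function.comp]
  ring

theorem hasDerivAt_bP (k : ℕ) (l a b s : ℝ) :
    HasDerivAt (bP k l a b)
      (k * bP (k - 1) l a b s + a * bR k 0 a b s + -a * bR k 0 a (b + l) s) s := by
  have h1 := (hasDerivAt_pow k s).mul
    ((hasDerivAt_piFun l (a * s - b)).comp s (hasDerivAt_aff a b s))
  refine h1.congr_deriv ?_
  simp only [bR, bP, Function.comp, iteratedDeriv_zero]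
  have : a * s - (b + l) = a * s - b - l := by ring
  rw [this]
  ring

theorem exists_supp_aff {g : ℝ → ℝ} {C : ℝ} (hg : ∀ s, C ≤ |s| → g s = 0) {a : ℝ} (ha : a ≠ 0)
    (b : ℝ) (k : ℕ) : ∃ R, Supp (fun s => s ^ k * g (a * s - b)) R := by
  obtain ⟨R, hR⟩ := exists_nat_gt ((|C| + |b|) / |a|)
  refine ⟨R, fun s hs => ?_⟩
  have ha' : 0 < |a| := abs_pos.2 ha
  show s ^ k * g (a * s - b) = 0
  rw [hg, mul_zero]
  rw [div_lt_iff₀ ha'] at hR
  have h1 : |a| * |s| = |a * s| := (abs_mul a s).symm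
  have h2 : |a * s| ≤ |a * s - b| + |b| := by
    have := abs_add_le (a * s - b) b
    rwa [sub_add_cancel] at this
  have h3 : (R : ℝ) * |a| ≤ |s| * |a| := mul_le_mul_of_nonneg_right hs ha'.le
  have h4 := le_abs_self C
  nlinarith

theorem exists_supp_bR (k j : ℕ) {a : ℝ} (ha : a ≠ 0) (b : ℝ) : ∃ R, Supp (bR k j a b) R :=
  exists_supp_aff (C := 1) (fun _ hs => iteratedDeriv_rho_zero j hs) ha b k

theorem exists_supp_bP (k : ℕ) {l a : ℝ} (hl : 0 ≤ l) (ha : a ≠ 0) (b : ℝ) :
    ∃ R, Supp (bP k l a b) R := by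
  refine exists_supp_aff (g := piFun l) (C := l + 1) (fun s hs => ?_) ha b k
  rcases le_abs.1 hs with h | h
  · exact piFun_zero_of_ge hl h
  · exact piFun_zero_of_le hl (by linarith)

end Vale.Agent.P113.H99
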