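import Vale.Agent.P113.H99.Rho

/-!
# P113, part 2: periodization
-/

namespace Vale.Agent.P113.H99

open MeasureTheory Set Filter Topology

theorem per_add_int (g : ℝ → ℝ) (y : ℝ) (n : ℤ) : periodize g (y + n) = periodize g y := by
  unfold periodize
  rw [← (Equiv.addRight n).tsum_eq (fun m : ℤ => g (y + m))]
  congr 1
  ext m
  simp only [Equiv.coe_addRight, Int.cast_add]
  congr 1
  ring

theorem per_add_one (g : ℝ → ℝ) (y : ℝ) : periodize g (y + 1) = periodize g y := by
  have := per_add_int g y 1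
  simpa using this

theorem per_periodic (g : ℝ → ℝ) : Function.Periodic (periodize g) 1 := per_add_one g

/-- a bound for the support -/
def Supp (g : ℝ → ℝ) (R : ℕ) : Prop := ∀ s, (R : ℝ) ≤ |s| → g s = 0

theorem Supp.mono {g : ℝ → ℝ} {R R' : ℕ} (h : Supp g R) (hR : R ≤ R') : Supp g R' :=
  fun s hs => h s (le_trans (by exact_mod_cast hR) hs)

theorem exists_supp {g : ℝ → ℝ} (h : HasCompactSupport g) : ∃ R, Supp g R := by
  obtain ⟨C, hC⟩ := h.isCompact.isBounded.exists_norm_le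
  obtain ⟨R, hR⟩ := exists_nat_gt C
  refine ⟨R, fun s hs => ?_⟩
  by_contra h0
  have : s ∈ tsupport g := subset_tsupport _ h0
  have := hC s this
  rw [Real.norm_eq_abs] at this
  linarith

theorem per_eq_sum {g : ℝ → ℝ} {R : ℕ} (h : Supp g R) {N : ℕ} {y : ℝ} (hy : |y| ≤ N) :
    periodize g y = ∑ m ∈ Finset.Icc (-(R + N : ℤ)) (R + N), g (y + m) := by
  unfold periodize
  refine tsum_eq_sum fun m hm => h _ ?_
  rw [Finset.mem_Icc, not_and_or, not_le, not_le] at hm
  have hy' := abs_le.1 hy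
  rcases hm with hm | hm
  · have : (m : ℝ) + 1 ≤ -(R + N) := by exact_mod_cast hm
    rw [le_abs]; right; linarith
  · have : (R + N : ℝ) + 1 ≤ m := by exact_mod_cast hm
    rw [le_abs]; left; linarith

theorem per_eventuallyEq {g : ℝ → ℝ} {R : ℕ} (h : Supp g R) (y : ℝ) :
    ∃ N : ℕ, |y| < N ∧ periodize g =ᶠ[𝓝 y]
      fun z => ∑ m ∈ Finset.Icc (-(R + N : ℤ)) (R + N), g (z + m) := by
  obtain ⟨N, hN⟩ := exists_nat_gt |y|
  refine ⟨N, hN, ?_⟩
  have : ∀ᶠ z in 𝓝 y, |z| < (N : ℝ) := (continuous_abs.tendsto y).eventually (gt_mem_nhds hN)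
  filter_upwards [this] with z hz
  exact per_eq_sum h hz.le

theorem supp_of_hasDerivAt {g g' : ℝ → ℝ} {R : ℕ} (h : Supp g R)
    (hd : ∀ s, HasDerivAt g (g' s) s) : Supp g' (R + 1) := by
  intro s hs
  have h1 : g =ᶠ[𝓝 s] fun _ => 0 := by
    have : ∀ᶠ z : ℝ in 𝓝 s, (R : ℝ) < |z| :=
      (continuous_abs.tendsto s).eventually (lt_mem_nhds (by push_cast at hs; linarith))
    filter_upwards [this] with z hz
    exact h z hz.le
  exact (hd s).unique ((hasDerivAt_const s (0 : ℝ)).congr_of_eventuallyEq h1)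

theorem hasDerivAt_per {g g' : ℝ → ℝ} {R : ℕ} (h : Supp g R)
    (hd : ∀ s, HasDerivAt g (g' s) s) (y : ℝ) : HasDerivAt (periodize g) (periodize g' y) y := by
  have h' := supp_of_hasDerivAt h hd
  obtain ⟨N, hN, hev⟩ := per_eventuallyEq (h.mono (Nat.le_succ R)) y
  rw [per_eq_sum h' hN.le]
  refine HasDerivAt.congr_of_eventuallyEq ?_ hev
  have : HasDerivAt (fun z => ∑ m ∈ Finset.Icc (-((R.succ : ℕ) + N : ℤ)) ((R.succ : ℕ) + N),
      g (z + m)) (∑ m ∈ Finset.Icc (-((R.succ : ℕ) + N : ℤ)) ((R.succ : ℕ) + N), g' (y + m)) y := by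
    refine HasDerivAt.fun_sum fun m _ => ?_
    have := (hd (y + m)).comp y ((hasDerivAt_id y).add_const (m : ℝ))
    rwa [mul_one] at this
  exact this

theorem per_contDiff {g : ℝ → ℝ} {R : ℕ} {n : WithTop ℕ∞} (h : Supp g R) (hg : ContDiff ℝ n g) :
    ContDiff ℝ n (periodize g) := by
  rw [contDiff_iff_contDiffAt]
  intro y
  obtain ⟨N, _, hev⟩ := per_eventuallyEq h y
  refine ContDiffAt.congr_of_eventuallyEq ?_ hev
  refine ContDiffAt.sum fun m _ => ?_
  exact (hg.comp (contDiff_id.add contDiff_const)).contDiffAt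

/-- the value of a periodization on a fundamental domain that contains the support -/
theorem per_eq_self {g : ℝ → ℝ} {lo y : ℝ} (h1 : ∀ s, s < lo → g s = 0)
    (h2 : ∀ s, lo + 1 ≤ s → g s = 0) (hy : lo ≤ y) (hy' : y < lo + 1) : periodize g y = g y := by
  unfold periodize
  rw [tsum_eq_single (0 : ℤ)]
  · simp
  · intro m hm
    rcases lt_or_gt_of_ne hm with h | h
    · apply h1
      have : (m : ℝ) ≤ -1 := by exact_mod_cast Int.le_sub_one_of_lt h
      linarith
    · apply h2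
      have : (1 : ℝ) ≤ m := by exact_mod_cast h
      linarith

/-- the value of a periodization everywhere -/
theorem per_eq_fract {g : ℝ → ℝ} {lo : ℝ} (h1 : ∀ s, s < lo → g s = 0)
    (h2 : ∀ s, lo + 1 ≤ s → g s = 0) (y : ℝ) : periodize g y = g (lo + Int.fract (y - lo)) := by
  have : periodize g y = periodize g (lo + Int.fract (y - lo)) := by
    have h := per_add_int g (lo + Int.fract (y - lo)) ⌊y - lo⌋
    rw [← h]
    congr 1
    have := Int.fract_add_floor (y - lo)
    linarith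
  rw [this]
  exact per_eq_self h1 h2 (by linarith [Int.fract_nonneg (y - lo)])
    (by linarith [Int.fract_lt_one (y - lo)])

/-! ### plateau functions -/

/-- a smooth function equal to `1` on `[p,q]` and `0` outside `(p-d, q+d)`, before
periodization: `κ⁻¹ π_ℓ(as-b)`, `a = 2/d`, `b = ap - 1`, `ℓ = a(q-p)+2` -/
noncomputable def plat (p q d s : ℝ) : ℝ :=
  kappa⁻¹ * piFun (2 / d * (q - p) + 2) (2 / d * s - (2 / d * p - 1))

theorem plat_eq_one {p q d s : ℝ} (hd : 0 < d) (h : p ≤ s) (h' : s ≤ q) : plat p q d s = 1 := by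
  have ha : 0 < 2 / d := by positivity
  rw [plat, piFun_eq_kappa, inv_mul_cancel₀ kappa_ne_zero]
  · nlinarith [mul_le_mul_of_nonneg_left h ha.le]
  · nlinarith [mul_le_mul_of_nonneg_left h' ha.le]

theorem plat_eq_zero_left {p q d s : ℝ} (hd : 0 < d) (hpq : p ≤ q) (h : s ≤ p - d) :
    plat p q d s = 0 := by
  have ha : 0 < 2 / d := by positivity
  have h3 : 2 / d * d = 2 := by field_simp
  rw [plat, piFun_zero_of_le, mul_zero]
  · nlinarith [mul_le_mul_of_nonneg_left hpq ha.le]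
  · nlinarith [mul_le_mul_of_nonneg_left h ha.le]

theorem plat_eq_zero_right {p q d s : ℝ} (hd : 0 < d) (hpq : p ≤ q) (h : q + d ≤ s) :
    plat p q d s = 0 := by
  have ha : 0 < 2 / d := by positivity
  have h3 : 2 / d * d = 2 := by field_simp
  rw [plat, piFun_zero_of_ge, mul_zero]
  · nlinarith [mul_le_mul_of_nonneg_left hpq ha.le]
  · nlinarith [mul_le_mul_of_nonneg_left h ha.le]

theorem plat_eq_zero {p q d s : ℝ} (hd : 0 < d) (hpq : p ≤ q) (h : s ≤ p - d ∨ q + d ≤ s) :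
    plat p q d s = 0 :=
  h.elim (plat_eq_zero_left hd hpq) (plat_eq_zero_right hd hpq)

/-- `P[s^k χ(s)]` on the fundamental domain `[lo, lo+1)` -/
theorem per_plat {p q d lo y : ℝ} {k : ℕ} (hd : 0 < d) (hpq : p ≤ q) (hlo : lo ≤ p - d)
    (hhi : q + d ≤ lo + 1) (hy : lo ≤ y) (hy' : y < lo + 1) :
    periodize (fun s => s ^ k * plat p q d s) y = y ^ k * plat p q d y := by
  refine per_eq_self (fun s hs => ?_) (fun s hs => ?_) hy hy'
  · rw [plat_eq_zero_left hd hpq (by linarith), mul_zero]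
  · rw [plat_eq_zero_right hd hpq (by linarith), mul_zero]

theorem per_plat_one {p q d lo y : ℝ} {k : ℕ} (hd : 0 < d) (hlo : lo ≤ p - d)
    (hhi : q + d ≤ lo + 1) (hy : p ≤ y) (hy' : y ≤ q) :
    periodize (fun s => s ^ k * plat p q d s) y = y ^ k := by
  rw [per_plat (lo := lo) hd (hy.trans hy') hlo hhi (by linarith) (by linarith),
    plat_eq_one hd hy hy', mul_one]

theorem per_plat_zero {p q d lo y : ℝ} {k : ℕ} (hd : 0 < d) (hpq : p ≤ q) (hlo : lo ≤ p - d)
    (hhi : q + d ≤ lo + 1) (hy : lo ≤ y) (hy' : y < lo + 1) (h : y ≤ p - d ∨ q + d ≤ y) :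
    periodize (fun s => s ^ k * plat p q d s) y = 0 := by
  rw [per_plat hd hpq hlo hhi hy hy', plat_eq_zero hd hpq h, mul_zero]

end Vale.Agent.P113.H99
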