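import Vale.Agent.P113.Iface

/-!
# P113, part 2: the functions rho, kappa, sigma, pi_l
-/

namespace Vale.Agent.P113.H99

open MeasureTheory Set

theorem rho_eq (s : ℝ) : rho s = expNegInvGlue (1 - s ^ 2) := by
  unfold rho expNegInvGlue
  by_cases h : |s| < 1
  · have h1 : s ^ 2 < 1 := by
      have := (sq_lt_one_iff_abs_lt_one s).2 h
      exact this
    rw [if_pos h, if_neg (by linarith)]
    congr 1
    rw [neg_div, one_div]
  · have h1 : 1 ≤ s ^ 2 := by
      have := (one_le_sq_iff_one_le_abs s).2 (not_lt.1 h)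
      exact this
    rw [if_neg h, if_pos (by linarith)]

theorem rho_contDiff {n : ℕ∞} : ContDiff ℝ n rho := by
  have : rho = fun s => expNegInvGlue (1 - s ^ 2) := funext rho_eq
  rw [this]
  exact expNegInvGlue.contDiff.comp (contDiff_const.sub (contDiff_id.pow 2))

theorem rho_nonneg (s : ℝ) : 0 ≤ rho s := by
  rw [rho_eq]; exact expNegInvGlue.nonneg _

theorem rho_pos {s : ℝ} (h : |s| < 1) : 0 < rho s := by
  rw [rho, if_pos h]; exact Real.exp_pos _

theorem rho_zero {s : ℝ} (h : 1 ≤ |s|) : rho s = 0 := by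
  rw [rho, if_neg (not_lt.2 h)]

theorem rho_continuous : Continuous rho := (rho_contDiff (n := 0)).continuous

theorem rho_hasCompactSupport : HasCompactSupport rho := by
  refine HasCompactSupport.intro (K := Icc (-1) 1) isCompact_Icc fun s hs => ?_
  apply rho_zero
  by_contra h
  rw [not_le, abs_lt] at h
  exact hs ⟨h.1.le, h.2.le⟩

theorem rho_integrable : Integrable rho :=
  rho_continuous.integrable_of_hasCompactSupport rho_hasCompactSupport

theorem sigma_eq (s : ℝ) : sigma s = ∫ r in (-1)..s, rho r := by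
  have h1 : ∫ r in Iic (-1 : ℝ), rho r = 0 := by
    rw [setIntegral_eq_zero_of_forall_eq_zero]
    intro r hr
    apply rho_zero
    rw [le_abs]; right; simp only [mem_Iic] at hr; linarith
  have := intervalIntegral.integral_Iic_sub_Iic (μ := volume) (f := rho) (a := -1) (b := s)
    rho_integrable.integrableOn rho_integrable.integrableOn
  rw [h1, sub_zero] at this
  exact this

theorem hasDerivAt_sigma (s : ℝ) : HasDerivAt sigma (rho s) s := by
  have : sigma = fun s => ∫ r in (-1)..s, rho r := funext sigma_eq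
  rw [this]
  exact intervalIntegral.integral_hasDerivAt_right (rho_integrable.intervalIntegrable)
    (rho_continuous.stronglyMeasurableAtFilter _ _) rho_continuous.continuousAt

theorem sigma_contDiff {n : ℕ∞} : ContDiff ℝ n sigma := by
  have hd : deriv sigma = rho := funext fun s => (hasDerivAt_sigma s).deriv
  have : ContDiff ℝ ((⊤ : ℕ∞) : WithTop ℕ∞) sigma := by
    rw [contDiff_infty_iff_deriv]
    refine ⟨fun s => (hasDerivAt_sigma s).differentiableAt, ?_⟩
    rw [hd]
    exact rho_contDiff
  exact this.of_le (by exact_mod_cast le_top)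

theorem sigma_of_le {s : ℝ} (h : s ≤ -1) : sigma s = 0 := by
  rw [sigma, setIntegral_eq_zero_of_forall_eq_zero]
  intro r hr
  apply rho_zero
  rw [le_abs]; right; simp only [mem_Iic] at hr; linarith

theorem sigma_of_ge {s : ℝ} (h : 1 ≤ s) : sigma s = kappa := by
  rw [sigma, kappa, ← integral_indicator measurableSet_Iic]
  congr 1
  ext r
  by_cases hr : r ≤ s
  · rw [indicator_of_mem (by exact hr)]
  · rw [indicator_of_notMem (by exact hr), rho_zero]
    rw [le_abs]; left; linarith [not_le.1 hr]

theorem kappa_pos : 0 < kappa := by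
  rw [kappa, integral_pos_iff_support_of_nonneg rho_nonneg rho_integrable]
  have : Ioo (-1 : ℝ) 1 ⊆ Function.support rho := by
    intro s hs
    rw [Function.mem_support]
    exact (rho_pos (abs_lt.2 hs)).ne'
  refine lt_of_lt_of_le ?_ (measure_mono this)
  rw [Real.volume_Ioo]
  norm_num

theorem kappa_ne_zero : kappa ≠ 0 := kappa_pos.ne'

theorem sigma_mono : Monotone sigma := by
  refine monotone_of_deriv_nonneg (fun s => (hasDerivAt_sigma s).differentiableAt) fun s => ?_
  rw [(hasDerivAt_sigma s).deriv]; exact rho_nonneg s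

theorem sigma_nonneg (s : ℝ) : 0 ≤ sigma s := by
  rw [← sigma_of_le (le_refl (-1 : ℝ))]
  rcases le_total s (-1) with h | h
  · rw [sigma_of_le h, sigma_of_le le_rfl]
  · exact sigma_mono h

theorem sigma_le_kappa (s : ℝ) : sigma s ≤ kappa := by
  rw [← sigma_of_ge (le_refl (1 : ℝ))]
  rcases le_total s 1 with h | h
  · exact sigma_mono h
  · rw [sigma_of_ge h, sigma_of_ge le_rfl]

/-! ### `π_ℓ` -/

theorem piFun_contDiff {n : ℕ∞} (l : ℝ) : ContDiff ℝ n (piFun l) :=
  sigma_contDiff.sub (sigma_contDiff.comp (contDiff_id.sub contDiff_const))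

theorem hasDerivAt_piFun (l s : ℝ) : HasDerivAt (piFun l) (rho s - rho (s - l)) s := by
  have h := (hasDerivAt_sigma (s - l)).comp s ((hasDerivAt_id s).sub_const l)
  rw [mul_one] at h
  exact (hasDerivAt_sigma s).sub h

theorem piFun_zero_of_le {l s : ℝ} (hl : 0 ≤ l) (h : s ≤ -1) : piFun l s = 0 := by
  rw [piFun, sigma_of_le h, sigma_of_le (by linarith), sub_zero]

theorem piFun_zero_of_ge {l s : ℝ} (hl : 0 ≤ l) (h : l + 1 ≤ s) : piFun l s = 0 := by
  rw [piFun, sigma_of_ge (by linarith), sigma_of_ge (by linarith), sub_self]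

theorem piFun_eq_kappa {l s : ℝ} (h : 1 ≤ s) (h' : s ≤ l - 1) : piFun l s = kappa := by
  rw [piFun, sigma_of_ge h, sigma_of_le (by linarith), sub_zero]

theorem piFun_hasCompactSupport {l : ℝ} (hl : 0 ≤ l) : HasCompactSupport (piFun l) := by
  refine HasCompactSupport.intro (K := Icc (-1) (l + 1)) isCompact_Icc fun s hs => ?_
  rcases le_total s (-1) with h | h
  · exact piFun_zero_of_le hl h
  · refine piFun_zero_of_ge hl ?_
    by_contra h'
    exact hs ⟨h, (not_le.1 h').le⟩

end Vale.Agent.P113.H99
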