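import Vale.Agent.P113.H99.BumpFun

/-!
# P113, part 2a: plateau functions
-/

namespace Vale.Agent.P113.H99

open MeasureTheory Set Filter Topology
open scoped ContDiff

/-- the function that is periodized in `Plateau.fn`, divided by `κ` -/
noncomputable def plg (P : Plateau) (s : ℝ) : ℝ := s ^ P.k *
  piFun ((2 * (P.hi - P.lo) / P.δ + 2 : ℚ) : ℝ)
    (((2 / P.δ : ℚ) : ℝ) * s - ((2 * P.lo / P.δ - 1 : ℚ) : ℝ))

theorem fn_eq (P : Plateau) (y : ℝ) : P.fn y = kappa⁻¹ * periodize (plg P) y := rfl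

theorem ok_real {P : Plateau} (h : P.Ok) : (0 : ℝ) < P.δ ∧ (P.lo : ℝ) ≤ P.hi ∧
    (P.hi : ℝ) - P.lo + 2 * P.δ ≤ 1 := by
  obtain ⟨h1, h2, h3⟩ := h
  exact ⟨by exact_mod_cast h1, by exact_mod_cast h2, by exact_mod_cast h3⟩

theorem plg_arg (P : Plateau) (s : ℝ) : ((2 / P.δ : ℚ) : ℝ) * s - ((2 * P.lo / P.δ - 1 : ℚ) : ℝ)
    = 2 / (P.δ : ℝ) * (s - P.lo) + 1 := by
  push_cast
  ring

theorem plg_len (P : Plateau) : ((2 * (P.hi - P.lo) / P.δ + 2 : ℚ) : ℝ)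
    = 2 / (P.δ : ℝ) * (P.hi - P.lo) + 2 := by
  push_cast
  ring

theorem plg_len_pos {P : Plateau} (h : P.Ok) :
    0 < ((2 * (P.hi - P.lo) / P.δ + 2 : ℚ) : ℝ) := by
  obtain ⟨h1, h2, _⟩ := ok_real h
  rw [plg_len]
  have : 0 ≤ 2 / (P.δ : ℝ) * (P.hi - P.lo) := mul_nonneg (by positivity) (by linarith)
  linarith

theorem plg_zero_left {P : Plateau} (h : P.Ok) {s : ℝ} (hs : s ≤ P.lo - P.δ) : plg P s = 0 := by
  obtain ⟨h1, h2, _⟩ := ok_real h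
  rw [plg, piFun_zero_of_le (plg_len_pos h).le, mul_zero]
  rw [plg_arg]
  have h3 : 2 / (P.δ : ℝ) * (s - P.lo) ≤ 2 / (P.δ : ℝ) * (-P.δ) :=
    mul_le_mul_of_nonneg_left (by linarith) (by positivity)
  have h4 : 2 / (P.δ : ℝ) * (-P.δ) = -2 := by field_simp
  linarith

theorem plg_zero_right {P : Plateau} (h : P.Ok) {s : ℝ} (hs : P.hi + P.δ ≤ s) : plg P s = 0 := by
  obtain ⟨h1, h2, _⟩ := ok_real h
  rw [plg, piFun_zero_of_ge (plg_len_pos h).le, mul_zero]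
  rw [plg_arg, plg_len]
  have h3 : 2 / (P.δ : ℝ) * (P.hi - P.lo + P.δ) ≤ 2 / (P.δ : ℝ) * (s - P.lo) :=
    mul_le_mul_of_nonneg_left (by linarith) (by positivity)
  have h4 : 2 / (P.δ : ℝ) * (P.hi - P.lo + P.δ) = 2 / (P.δ : ℝ) * (P.hi - P.lo) + 2 := by
    field_simp
  linarith

theorem plg_kappa {P : Plateau} (h : P.Ok) {s : ℝ} (hs : (P.lo : ℝ) ≤ s) (hs' : s ≤ P.hi) :
    plg P s = s ^ P.k * kappa := by
  obtain ⟨h1, h2, _⟩ := ok_real h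
  rw [plg, piFun_eq_kappa]
  · rw [plg_arg]
    have h3 : 0 ≤ 2 / (P.δ : ℝ) * (s - P.lo) := mul_nonneg (by positivity) (by linarith)
    linarith
  · rw [plg_arg, plg_len]
    have h3 : 2 / (P.δ : ℝ) * (s - P.lo) ≤ 2 / (P.δ : ℝ) * (P.hi - P.lo) :=
      mul_le_mul_of_nonneg_left (by linarith) (by positivity)
    linarith

theorem plg_contDiff {n : ℕ∞} (P : Plateau) : ContDiff ℝ n (plg P) := bP_contDiff _ _ _ _

theorem exists_supp_plg {P : Plateau} (h : P.Ok) : ∃ R, Supp (plg P) R := by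
  refine exists_supp_bP _ (plg_len_pos h).le ?_ _
  obtain ⟨h1, _, _⟩ := h
  have : (0 : ℚ) < 2 / P.δ := by positivity
  exact_mod_cast this.ne'

theorem fn_of_mem {P : Plateau} (h : P.Ok) {y : ℝ} (hy : P.lo - P.δ ≤ y)
    (hy' : y < P.lo - P.δ + 1) : P.fn y = kappa⁻¹ * plg P y := by
  obtain ⟨h1, h2, h3⟩ := ok_real h
  rw [fn_eq, per_eq_self (lo := P.lo - P.δ) (fun s hs => plg_zero_left h hs.le)
    (fun s hs => plg_zero_right h (by linarith)) hy hy']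

theorem fn_periodic (P : Plateau) (y : ℝ) : P.fn (y + 1) = P.fn y := by
  rw [fn_eq, fn_eq, per_add_one]

theorem fn_add_int (P : Plateau) (y : ℝ) (n : ℤ) : P.fn (y + n) = P.fn y := by
  rw [fn_eq, fn_eq, per_add_int]

theorem fn_contDiff {P : Plateau} (h : P.Ok) {n : ℕ∞} : ContDiff ℝ n P.fn := by
  obtain ⟨R, hR⟩ := exists_supp_plg h
  exact contDiff_const.mul (per_contDiff hR (plg_contDiff P))

theorem fn_eq_pow {P : Plateau} (h : P.Ok) {y : ℝ} (hy : (P.lo : ℝ) ≤ y) (hy' : y ≤ P.hi) :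
    P.fn y = y ^ P.k := by
  obtain ⟨h1, h2, h3⟩ := ok_real h
  rw [fn_of_mem h (by linarith) (by linarith), plg_kappa h hy hy', mul_comm (y ^ P.k) kappa,
    ← mul_assoc, inv_mul_cancel₀ kappa_ne_zero, one_mul]

theorem fn_eq_zero {P : Plateau} (h : P.Ok) {y : ℝ} (hy : (P.hi : ℝ) + P.δ ≤ y)
    (hy' : y ≤ 1 + P.lo - P.δ) : P.fn y = 0 := by
  obtain ⟨h1, h2, h3⟩ := ok_real h
  rcases hy'.lt_or_eq with h' | h'
  · rw [fn_of_mem h (by linarith) (by linarith), plg_zero_right h hy, mul_zero]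
  · have : y = (P.lo - P.δ : ℝ) + 1 := by rw [h']; ring
    rw [this, fn_periodic, fn_of_mem h le_rfl (by linarith), plg_zero_left h le_rfl, mul_zero]

theorem fn_eq_zero' {P : Plateau} (h : P.Ok) {y : ℝ} (hy : (P.hi : ℝ) + P.δ - 1 ≤ y)
    (hy' : y ≤ P.lo - P.δ) : P.fn y = 0 := by
  rw [← fn_periodic]
  exact fn_eq_zero h (by linarith) (by linarith)

theorem part2a : Part2a :=
  ⟨kappa_pos, fun _ h => ⟨fn_contDiff (n := ⊤) h, fn_periodic _, fun _ h1 h2 => fn_eq_pow h h1 h2,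
    fun _ h1 h2 => fn_eq_zero h h1 h2, fun _ h1 h2 => fn_eq_zero' h h1 h2⟩⟩

end Vale.Agent.P113.H99
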